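import Vale.Agent.P073.RED.Spec
import Vale.Agent.P073.AB.Final
import Vale.Agent.P073.Spec.Top

/-!
# P073: from small errors to the final statement
-/

namespace P073.Main

open Vale.Agent.P073.St Vale.Agent.P073.AB Vale.Agent.P073.RED
open Filter Topology

/-- homeomorphisms with arbitrarily small error are diffeomorphically approximable -/
theorem approximable_of_err {p : ℝ} {Ω Λ : Set V} {f : V → V} {F : V → Mat} (hp : 1 ≤ p)
    (hp2 : p < 2) (hΩ : IsBoundedDomain Ω) (hΛ : IsBoundedDomain Λ) (hf : IsHomeo Ω Λ f)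
    (hF : IsSobolev p Ω f F)
    (H : ∀ ε > 0, ∃ g : V → V, IsDiffeo Ω Λ g ∧ err p Ω f F g ≤ ENNReal.ofReal ε) :
    DiffeoApproximable p Ω Λ f F := by
  obtain ⟨f', hff', hfc, hfc'⟩ := hf
  have hlim0 : Tendsto (fun k : ℕ => 1 / ((k : ℝ) + 1)) atTop (𝓝 0) :=
    tendsto_one_div_add_atTop_nhds_zero_nat
  have hlim : Tendsto (fun k : ℕ => ENNReal.ofReal (1 / ((k : ℝ) + 1))) atTop (𝓝 0) := by
    have := ENNReal.tendsto_ofReal hlim0
    simpa using this
  exact approximable_of hp hp2 hΩ hΛ hfc hF hlim (fun k => ENNReal.ofReal_ne_top)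
    fun k => H _ (by positivity)

theorem final_of_allErr (H : SpecAllErr) : P073.Top.Final := fun p Ω Λ f F hp hp2 hΩ hΛ hf hF =>
  approximable_of_err hp hp2 hΩ hΛ hf hF (H p Ω Λ f F hp hp2 hΩ hΛ hf hF)

end P073.Main
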