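import Vale.Agent.P073.PK.Choice5
import Vale.Agent.P073.Net.Final
import Vale.Agent.P073.AB.Sum293
import Vale.Agent.P073.AB.Final
import Vale.Agent.P073.SQ.Final
import Vale.Agent.P073.Gauge.Main407
import Vale.Agent.P073.GBM.CellFinal

/-!
# P073: the first milestone (finite distortion), from the topology output
-/

namespace P073.Main

open Vale.Agent.P073.AB
open P073.Gauge P073.Top P073.Net

theorem specFD_of_top (hTT : TopTT) : SpecFD :=
  specFD_of Vale.Agent.P073.PK.specChoice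
    (specGauge_of_netOut (netOut_of hTT netLp) P073.Cell.specCell)

open Vale.Agent.P073.St in
theorem finiteDistortion_of (hTT : TopTT) (p : ℝ) (Ω Λ : Set V) (f : V → V) (F : V → Mat)
    (hp : 1 ≤ p) (hp2 : p < 2) (hΩ : IsBoundedDomain Ω) (hΛ : IsBoundedDomain Λ)
    (hf : IsHomeo Ω Λ f) (hF : IsSobolev p Ω f F) (hD : FinDist Ω F) :
    DiffeoApproximable p Ω Λ f F :=
  specFinal Vale.Agent.P073.SQ.specSQ p Ω Λ f F hp hp2 hΩ hΛ hf hF
    (specFD_of_top hTT p Ω Λ f F hp hp2 hΩ hΛ hf hF hD)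

end P073.Main
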