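import Vale.Agent.P073.Main.Err
import Vale.Agent.P073.RED.Red225
import Vale.Agent.P073.RED.FineOf
import Vale.Agent.P073.RED.Vit
import Vale.Agent.P073.RED.GlueH225
import Vale.Agent.P073.RED720.GlueS
import Vale.Agent.P073.RED.Aff907
import Vale.Agent.P073.RED.Zero
import Vale.Agent.P073.RED.Leb
import Vale.Agent.P073.RED.Basis894
import Vale.Agent.P073.RED.M1

/-!
# P073: the full theorem, from the first milestone and the local theorems
-/

namespace P073.Main

open Vale.Agent.P073.AB Vale.Agent.P073.RED

theorem final_of (hFD : SpecFD) (h1 : SpecLoc1) (h2 : SpecLoc2) : P073.Top.Final :=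
  final_of_allErr (specRED (specM1 hFD)
    (specFineOf h1 h2 specAff specZero specLeb specBasis) specVit specGlueH specGlueS)

end P073.Main
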